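import Vale.Agent.P158.H219.Perturb

open Vale.Agent.P158 Vale.Agent.P158.H219 MeasureTheory

theorem Vale.Agent.Results.P158.DivergingExcess.result (G : Measure ℝ)
    [IsProbabilityMeasure G] (hG : G (Set.Iio 0) = 0) (hatom : ∀ x, G {x} = 0)
    (Ω : Type*) [MeasurableSpace Ω] (P : Measure Ω) [IsProbabilityMeasure P]
    (t : latt.edgeSet → Ω → ℝ) (ht : ∀ e, Measurable (t e)) (hlaw : ∀ e, P.map (t e) = G)
    (hind : ProbabilityTheory.iIndepFun t P) :
    -- (1) Q1: no bigeodesics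
    (∀ᵐ ω ∂P, ∀ v : ℤ → V, ¬ IsBigeodesic (fun e => t e ω) v) ∧
    -- (2) the excess of walks through a finite set diverges, uniformly over all domains
    (∀ᵐ ω ∂P, ∀ (K : Finset V) (C : ℝ), ∃ N : ℕ, ∀ S : Set V, box N ⊆ S → ∀ x y : V,
      x ∉ box N → y ∉ box N → ∀ p : latt.Walk x y, (∀ z ∈ p.support, z ∈ S) →
      (∃ z ∈ p.support, z ∈ K) → ∃ q : latt.Walk x y, (∀ z ∈ q.support, z ∈ S) ∧
        walkWeight (fun e => t e ω) q + C ≤ walkWeight (fun e => t e ω) p) ∧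
    -- (3) the same in probability, uniformly over all pairs of distant points
    (∀ (z : V) (C : ℝ), Filter.Tendsto (fun N : ℕ => P {ω | ∃ x y : V,
      x ∉ box N ∧ y ∉ box N ∧
      passageTime (fun e => t e ω) x z + passageTime (fun e => t e ω) z y <
        passageTime (fun e => t e ω) x y + C}) Filter.atTop (nhds 0)) ∧
    -- (4) no bigeodesics simultaneously for all summable perturbations
    (∀ᵐ ω ∂P, ∀ s : latt.edgeSet → ℝ, (∀ e, 0 ≤ s e) → (Summable fun e => |s e - t e ω|) →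
      ∀ v : ℤ → V, ¬ IsBigeodesic s v) ∧
    -- (5) the planar random-bond Ising ferromagnet has exactly two ground states
    (∀ᵐ ω ∂P, ∀ J : latt.edgeSet → ℝ, (∀ e, 0 < J e) → (Summable fun e => |J e - t e ω|) →
      (∀ σ : V → ℤˣ, IsGroundState J σ ↔ (∀ x, σ x = 1) ∨ (∀ x, σ x = -1)) ∧
      ∀ K : Finset V, ∃ N : ℕ, ∀ σ : V → ℤˣ,
        (∀ A : Finset V, (∀ z ∈ A, z ∈ box N) → 0 ≤ flipCost J σ A) →
        ∀ x ∈ K, ∀ y ∈ K, σ x = σ y) :=
  Vale.Agent.P158.H219.main hG hatom ht hlaw hind
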