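import Vale.Agent.P158.H446.Main

open Vale.Agent.P158 MeasureTheory

theorem Vale.Agent.Results.P158.IndependentWeights.result (G : Measure ℝ)
    [IsProbabilityMeasure G] (hG : G (Set.Iio 0) = 0) (hatom : ∀ x, G {x} = 0)
    (Ω : Type*) [MeasurableSpace Ω] (P : Measure Ω) [IsProbabilityMeasure P]
    (t : latt.edgeSet → Ω → ℝ) (ht : ∀ e, Measurable (t e))
    (hind : ProbabilityTheory.iIndepFun t P) :
    -- (1) Q1: if all weights have the atomless law `G`, there are no bigeodesics
    ((∀ e, P.map (t e) = G) → ∀ᵐ ω ∂P, ∀ v : ℤ → V, ¬ IsBigeodesic (fun e => t e ω) v) ∧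
    -- (2) independent weights with different laws, summable squared Hellinger distances to `G`
    ((Summable fun e => 1 - ∫ x, √((P.map (t e)).rnDeriv G x).toReal ∂G) →
      ∀ᵐ ω ∂P, ∀ s : latt.edgeSet → ℝ, (∀ e, 0 ≤ s e) → (Summable fun e => |s e - t e ω|) →
        (∀ v : ℤ → V, ¬ IsBigeodesic s v) ∧
        ∀ z : V, Filter.Tendsto
          (fun p : V × V => passageTime s p.1 z + passageTime s z p.2 - passageTime s p.1 p.2)
          (Filter.cofinite ×ˢ Filter.cofinite) Filter.atTop) :=
  ⟨fun hlaw => Vale.Agent.P158.C.Fin.no_bigeodesics_all G hG hatom Ω P t ht hlaw hind,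
    fun hsum => Vale.Agent.P158.H446.main hG hatom ht hind hsum⟩
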