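import Vale.Agent.P158.H648.Prob

open Vale.Agent.P158 Vale.Agent.P158.H648 MeasureTheory Filter Topology

/-- Let `G` be an atomless law on `[0,∞)`. (1) Almost surely there is no bigeodesic for independent
weights with law `G`. (2) The indicator of the event that a vertex of the finite set `K` lies, up
to the error `C`, on a geodesic between two points outside `[-N,N]²` is bounded, for all
nonnegative weights, by a continuous function of finitely many weights with mean less than `ε`.
(3), (4) Bigeodesics through `K` have vanishing probability along nonnegative random environments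
converging in law to the independent one. -/
theorem Vale.Agent.Results.P158.StabilityInLaw.result (G : ProbabilityMeasure ℝ)
    (hG : (G : Measure ℝ) (Set.Iio 0) = 0) (hatom : ∀ x, (G : Measure ℝ) {x} = 0) :
    (∀ (Ω : Type*) [MeasurableSpace Ω] (P : Measure Ω) [IsProbabilityMeasure P]
      (t : latt.edgeSet → Ω → ℝ), (∀ e, Measurable (t e)) → (∀ e, P.map (t e) = G) →
      ProbabilityTheory.iIndepFun t P →
      ∀ᵐ ω ∂P, ∀ v : ℤ → V, ¬ IsBigeodesic (fun e => t e ω) v) ∧
    (∀ (K : Finset V) (C ε : ℝ), 0 < ε → LocalBound G K C ε) ∧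
    (∀ μ : ℕ → Measure Weights, (∀ k, IsProbabilityMeasure (μ k)) →
      (∀ k, ∀ᵐ s ∂(μ k), ∀ e, 0 ≤ s e) → ConvergesTo μ G → BigeodesicsVanish μ) ∧
    (∀ H : ℕ → latt.edgeSet → ProbabilityMeasure ℝ,
      (∀ k e, (H k e : Measure ℝ) (Set.Iio 0) = 0) →
      (∀ e, Tendsto (fun k => H k e) atTop (𝓝 G)) →
      BigeodesicsVanish fun k => indepLaw (H k)) :=
  ⟨fun Ω _ P _ t ht hlaw hind => C.Fin.no_bigeodesics_all G hG hatom Ω P t ht hlaw hind,
    localBound hG hatom, bigeodesics_vanish hG hatom, bigeodesics_vanish_indep hG hatom⟩
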